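import Vale.Agent.P281.H167.GM.Iface
import Vale.Agent.P299.H738.Prod
import Vale.Agent.P299.H937.C0

/-! P281, theorem GM, block E (`MassPart`): the regularized curvature has no mass on the zero set
of `ρ`. -/

open scoped Manifold ContDiff Topology ComplexOrder
open Set Filter Vale.Agent.P272.K Vale.Agent.P272.K.AMP Vale.Agent.P299
open Vale.Agent.P299.H882
open Vale.Agent.P272.K.INT (intX IsClosedForm)

set_option linter.all false

noncomputable section

namespace Vale.Agent.P281.H283.GME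

open Vale.Agent.P281.H167.GM

/-- the cut-off is small compared with `- log` -/
lemma eta_le {Λ δ r : ℝ} (hδ : 0 < δ) (hδ1 : δ < 1) (hr : δ ≤ r) (hΛ : 0 ≤ Λ)
    (h1 : 1 ≤ Λ - Real.log r) :
    δ / r ≤ (Real.sqrt δ + 2 / Real.log (1 / δ)) * (Λ - Real.log r) := by
  have hr0 : 0 < r := hδ.trans_le hr
  have hs : 0 < Real.sqrt δ := Real.sqrt_pos.2 hδ
  have hL : 0 < Real.log (1 / δ) := Real.log_pos (by rw [lt_div_iff₀ hδ]; linarith)
  have h2 : 0 < 2 / Real.log (1 / δ) := by positivity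
  rcases le_or_gt (Real.sqrt δ) r with h | h
  · have h3 : δ / r ≤ Real.sqrt δ := by
      rw [div_le_iff₀ hr0]
      calc δ = Real.sqrt δ * Real.sqrt δ := (Real.mul_self_sqrt hδ.le).symm
        _ ≤ Real.sqrt δ * r := mul_le_mul_of_nonneg_left h hs.le
    calc δ / r ≤ Real.sqrt δ * 1 := by rw [mul_one]; exact h3
      _ ≤ (Real.sqrt δ + 2 / Real.log (1 / δ)) * (Λ - Real.log r) :=
        mul_le_mul (by linarith) h1 zero_le_one (by positivity)
  · have h3 : δ / r ≤ 1 := by rw [div_le_one hr0]; exact hr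
    have h4 : Real.log (1 / δ) / 2 ≤ Λ - Real.log r := by
      have h5 : Real.log r ≤ Real.log (Real.sqrt δ) := Real.log_le_log hr0 h.le
      rw [Real.log_sqrt hδ.le] at h5
      rw [one_div, Real.log_inv]
      linarith
    calc δ / r ≤ 1 := h3
      _ = 2 / Real.log (1 / δ) * (Real.log (1 / δ) / 2) := by field_simp
      _ ≤ (Real.sqrt δ + 2 / Real.log (1 / δ)) * (Λ - Real.log r) :=
        mul_le_mul (by linarith) h4 (by positivity) (by positivity)

/-- `(Λ - t) e^{t/m}` is bounded above for `t ≤ Λ` -/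
lemma exp_le {m : ℕ} (hm : 0 < m) {Λ t : ℝ} (hΛ : 0 ≤ Λ) (ht : t ≤ Λ) :
    (Λ - t) * Real.exp ((m : ℝ)⁻¹ * t) ≤ Λ * Real.exp ((m : ℝ)⁻¹ * Λ) + m := by
  have hm' : (0 : ℝ) < m := Nat.cast_pos.2 hm
  have h1 : Λ * Real.exp ((m : ℝ)⁻¹ * t) ≤ Λ * Real.exp ((m : ℝ)⁻¹ * Λ) := by gcongr
  have h2 : -t * Real.exp ((m : ℝ)⁻¹ * t) ≤ m := by
    have h3 : -((m : ℝ)⁻¹ * t) ≤ Real.exp (-((m : ℝ)⁻¹ * t)) := by
      have := Real.add_one_le_exp (-((m : ℝ)⁻¹ * t))
      linarith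
    have h4 : -((m : ℝ)⁻¹ * t) * Real.exp ((m : ℝ)⁻¹ * t) ≤ 1 := by
      calc -((m : ℝ)⁻¹ * t) * Real.exp ((m : ℝ)⁻¹ * t)
          ≤ Real.exp (-((m : ℝ)⁻¹ * t)) * Real.exp ((m : ℝ)⁻¹ * t) :=
            mul_le_mul_of_nonneg_right h3 (Real.exp_pos _).le
        _ = 1 := by rw [← Real.exp_add]; simp
    have h5 : -t * Real.exp ((m : ℝ)⁻¹ * t) =
        m * (-((m : ℝ)⁻¹ * t) * Real.exp ((m : ℝ)⁻¹ * t)) := by field_simp
    rw [h5]
    nlinarith
  nlinarith

lemma exists_small (K κ : ℝ) (hK : 0 ≤ K) (hκ : 0 < κ) : ∃ δ₀ : ℝ, 0 < δ₀ ∧ ∀ δ : ℝ, 0 < δ →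
    δ ≤ δ₀ → δ < 1 ∧ (Real.sqrt δ + 2 / Real.log (1 / δ)) * K ≤ κ := by
  have h1 : Tendsto (fun δ : ℝ => Real.sqrt δ) (𝓝[>] 0) (𝓝 0) := by
    have := Real.continuous_sqrt.tendsto 0
    rw [Real.sqrt_zero] at this
    exact this.mono_left nhdsWithin_le_nhds
  have h2 : Tendsto (fun δ : ℝ => Real.log (1 / δ)) (𝓝[>] 0) atTop := by
    have h3 : Tendsto (fun δ : ℝ => 1 / δ) (𝓝[>] 0) atTop := by
      simpa [one_div] using tendsto_inv_nhdsGT_zero (𝕜 := ℝ)
    exact Real.tendsto_log_atTop.comp h3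
  have h4 : Tendsto (fun δ : ℝ => 2 / Real.log (1 / δ)) (𝓝[>] 0) (𝓝 0) :=
    h2.const_div_atTop 2
  have h5 := (h1.add h4).mul_const K
  rw [add_zero, zero_mul] at h5
  have h6 : ∀ᶠ δ : ℝ in 𝓝[>] 0, δ < 1 ∧ (Real.sqrt δ + 2 / Real.log (1 / δ)) * K ≤ κ := by
    have h7 : ∀ᶠ δ : ℝ in 𝓝[>] 0, δ < 1 :=
      eventually_nhdsWithin_of_eventually_nhds (gt_mem_nhds one_pos)
    filter_upwards [h7, h5.eventually (gt_mem_nhds hκ)] with δ a b using ⟨a, b.le⟩
  obtain ⟨δ₀, h8, h9⟩ := mem_nhdsGT_iff_exists_Ioc_subset.1 h6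
  exact ⟨δ₀, h8, fun δ a b => h9 ⟨a, b⟩⟩

section

variable {n : ℕ} {X : Type} [TopologicalSpace X] [ChartedSpace (Cm n) X]
  [IsManifold 𝓘(ℂ, Cm n) ω X]

/-- Green's formula for `J` -/
lemma J_green [T2Space X] [CompactSpace X] {g : D.FormM n X} (hg : IsKahler g) {u v : X → ℝ}
    (hu : SmoothFn (n := n) u) (hv : SmoothFn (n := n) v) :
    J g (fun x => v x * lapX g u x) = J g (fun x => u x * lapX g v x) := by
  have key : ∀ {a b : X → ℝ}, SmoothFn (n := n) a → J g (fun x => b x * lapX g a x) =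
      intX (fun e z => b (e.symm z) * Ld g a e z) := by
    intro a b ha
    unfold J
    refine INT.intX_congr fun e x hx => ?_
    beta_reduce
    rw [hx.left_inv, lapX_eq hg.toIsHermitian ha hx, mul_assoc]
    rfl
  rw [key hu, key hv]
  exact green hg hu hv

lemma hess_logD {m : ℕ} (hm : 0 < m) {φ : Chart n X → Cm n → ℝ} (hφ : IsCanonicalMetric φ)
    {ρ : X → ℝ} (hρ : SmoothFn (n := n) ρ) (hρ0 : ∀ x, 0 ≤ ρ x) {δ : ℝ} (hδ : 0 < δ)
    {e : Chart n X} {x : X} (hx : At e x) :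
    hess (fun y => Real.log (ρ y + δ)) e (e x) =
      (m : ℂ) • (cHess (phiD φ m ρ δ e) (e x) - cHess (φ e) (e x)) := by
  have hs : SmoothFn (n := n) (fun y => Real.log (ρ y + δ)) :=
    sm_log (sm_add hρ (smoothFn_const δ)) fun y => by have := hρ0 y; linarith
  have h1 : cHess (phiD φ m ρ δ e) (e x) = cHess (φ e) (e x) +
      (((m : ℝ)⁻¹ : ℝ) : ℂ) • cHess (fun z => Real.log (ρ (e.symm z) + δ)) (e x) := by
    have h2 : phiD φ m ρ δ e = fun z => φ e z + (m : ℝ)⁻¹ * Real.log (ρ (e.symm z) + δ) := rfl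
    have d1 : ContDiffAt ℝ 2 (φ e) (e x) := (hφ.smooth e x hx).of_le (by norm_cast)
    have d2 : ContDiffAt ℝ 2 (fun z => Real.log (ρ (e.symm z) + δ)) (e x) := sm_two hs hx
    rw [h2, C2.cHess_add d1 (contDiffAt_const.mul d2), C2.cHess_const_mul _ d2]
  have hm' : (m : ℂ) ≠ 0 := Nat.cast_ne_zero.2 hm.ne'
  rw [h1, add_sub_cancel_left, smul_smul]
  push_cast
  rw [mul_inv_cancel₀ hm', one_smul]
  rfl


lemma smul_psd' {M : Matrix (Fin n) (Fin n) ℂ} (hM : M.PosSemidef) {c : ℝ} (hc : 0 ≤ c) :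
    ((c : ℂ) • M).PosSemidef := by
  have h1 : (c : ℂ) • M = c • M := by ext i j; simp
  rw [h1]; exact hM.smul hc

/-- `i∂∂̄ log(ρ + δ) ≥ - C' G` uniformly in `δ` -/
lemma hess_lower {m : ℕ} (hm : 0 < m) {φ : Chart n X → Cm n → ℝ} (hφ : IsCanonicalMetric φ)
    {ρ : X → ℝ} (hρ : SmoothFn (n := n) ρ) (hρ0 : ∀ x, 0 ≤ ρ x) {G : D.FormM n X}
    (hG : IsKahler G) {C A : ℝ} (hC : CurvGe φ m ρ C G)
    (hA : ∀ e x, At e x → ((A : ℂ) • G e (e x) - cHess (φ e) (e x)).PosSemidef) {δ : ℝ}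
    (hδ : 0 < δ) {e : Chart n X} {x : X} (hx : At e x) :
    (hess (fun y => Real.log (ρ y + δ)) e (e x) + ((m * (|C| + A) : ℝ) : ℂ) • G e (e x)).PosSemidef := by
  have hr : 0 < ρ x + δ := by have := hρ0 x; linarith
  have h1 : δ / (ρ x + δ) ≤ 1 := by rw [div_le_one hr]; have := hρ0 x; linarith
  have h2 : 0 ≤ δ / (ρ x + δ) := by positivity
  have h3 : 0 ≤ |C| - C * (δ / (ρ x + δ)) := by
    have h4 := le_abs_self C
    have h5 := abs_nonneg C
    have h6 : C * (δ / (ρ x + δ)) ≤ |C| * 1 := mul_le_mul h4 h1 h2 h5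
    linarith
  have e1 : hess (fun y => Real.log (ρ y + δ)) e (e x) + ((m * (|C| + A) : ℝ) : ℂ) • G e (e x) =
      ((m : ℝ) : ℂ) • ((cHess (phiD φ m ρ δ e) (e x) + ((C * (δ / (ρ x + δ)) : ℝ) : ℂ) • G e (e x)) +
        ((|C| - C * (δ / (ρ x + δ)) : ℝ) : ℂ) • G e (e x) +
        ((A : ℂ) • G e (e x) - cHess (φ e) (e x))) := by
    rw [hess_logD hm hφ hρ hρ0 hδ hx]
    ext i j
    simp only [Matrix.add_apply, Matrix.sub_apply, Matrix.smul_apply, smul_eq_mul]
    push_cast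
    ring
  rw [e1]
  exact smul_psd' (((hC δ hδ e x hx).add (smul_psd' (hG.posDef e x hx).posSemidef h3)).add
    (hA e x hx)) (Nat.cast_nonneg m)

/-- the trace of `G` with respect to `g = G + i∂∂̄U` -/
lemma tr_eq {G : D.FormM n X} (hG : IsKahler G) {U : X → ℝ} (hU : SmoothFn (n := n) U)
    (hg : IsKahler (addH G U)) (x : X) :
    trX (addH G U) G x = n - lapX (addH G U) U x := by
  have hx := at_chartAt (n := n) x
  rw [trX_eq hg.toIsHermitian hG.toIsHermitian.isForm hx, lapX_eq hg.toIsHermitian hU hx]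
  have hdet : IsUnit (addH G U (chartAt (Cm n) x) (chartAt (Cm n) x x)).det :=
    isUnit_iff_ne_zero.2 (hg.posDef _ x hx).det_pos.ne'
  have h2 : G (chartAt (Cm n) x) (chartAt (Cm n) x x) =
      addH G U (chartAt (Cm n) x) (chartAt (Cm n) x x) -
        hess U (chartAt (Cm n) x) (chartAt (Cm n) x x) := by
    show _ = G _ _ + hess U _ _ - _
    abel
  unfold trE lapE
  conv_lhs => rw [h2]
  rw [tr_sub, Matrix.nonsing_inv_mul _ hdet, Matrix.trace_one]
  simp

lemma tr_nonneg {G : D.FormM n X} (hG : IsKahler G) {g : D.FormM n X} (hg : IsKahler g) (x : X) :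
    0 ≤ trX g G x := by
  have hx := at_chartAt (n := n) x
  rw [trX_eq hg.toIsHermitian hG.toIsHermitian.isForm hx]
  exact (Complex.le_def.1 (C2.trace_mul_nonneg (hg.posDef _ x hx).inv.posSemidef
    (hG.posDef _ x hx).posSemidef)).1

lemma lap_lower {m : ℕ} (hm : 0 < m) {φ : Chart n X → Cm n → ℝ} (hφ : IsCanonicalMetric φ)
    {ρ : X → ℝ} (hρ : SmoothFn (n := n) ρ) (hρ0 : ∀ x, 0 ≤ ρ x) {G : D.FormM n X}
    (hG : IsKahler G) {C A : ℝ} (hC : CurvGe φ m ρ C G)
    (hA : ∀ e x, At e x → ((A : ℂ) • G e (e x) - cHess (φ e) (e x)).PosSemidef) {δ : ℝ}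
    (hδ : 0 < δ) {g : D.FormM n X} (hg : IsKahler g) (x : X) :
    0 ≤ lapX g (fun y => Real.log (ρ y + δ)) x + m * (|C| + A) * trX g G x := by
  have hs : SmoothFn (n := n) (fun y => Real.log (ρ y + δ)) :=
    sm_log (sm_add hρ (smoothFn_const δ)) fun y => by have := hρ0 y; linarith
  have hx := at_chartAt (n := n) x
  rw [trX_eq hg.toIsHermitian hG.toIsHermitian.isForm hx, lapX_eq hg.toIsHermitian hs hx]
  unfold trE lapE
  rw [← tr_smul, ← tr_add]
  exact (Complex.le_def.1 (C2.trace_mul_nonneg (hg.posDef _ x hx).inv.posSemidef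
    (hess_lower hm hφ hρ hρ0 hG hC hA hδ hx))).1

variable [T2Space X] [CompactSpace X]

/-- the main inequality: `∫ (Λ - log(ρ+δ)) tr_g G dv_g` is bounded -/
lemma main_ineq {m : ℕ} (hm : 0 < m) {φ : Chart n X → Cm n → ℝ} (hφ : IsCanonicalMetric φ)
    {ρ : X → ℝ} (hρ : SmoothFn (n := n) ρ) (hρ0 : ∀ x, 0 ≤ ρ x) {G : D.FormM n X}
    (hG : IsKahler G) {C A : ℝ} (hA0 : 0 ≤ A) (hC : CurvGe φ m ρ C G)
    (hA : ∀ e x, At e x → ((A : ℂ) • G e (e x) - cHess (φ e) (e x)).PosSemidef) {δ : ℝ}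
    (hδ : 0 < δ) {U : X → ℝ} (hU : SmoothFn (n := n) U) (hg : IsKahler (addH G U)) (Λ : ℝ)
    {C0 : ℝ} (x₀ : X) (h0 : ∀ x, U x₀ ≤ U x) (h1 : ∀ x, U x - U x₀ ≤ C0) (hC0 : 0 ≤ C0) :
    J (addH G U) (fun x => (Λ - Real.log (ρ x + δ)) * trX (addH G U) G x) ≤
      n * J (addH G U) (fun x => Λ - Real.log (ρ x + δ)) +
        C0 * (m * (|C| + A) * (n * J (addH G U) (fun _ => 1))) := by
  set g := addH G U with hgdef
  have hgH := hg.toIsHermitian
  set v : X → ℝ := fun x => Real.log (ρ x + δ) with hv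
  have hvs : SmoothFn (n := n) v :=
    sm_log (sm_add hρ (smoothFn_const δ)) fun y => by have := hρ0 y; linarith
  set W : X → ℝ := fun x => U x - U x₀ with hW
  have hWs : SmoothFn (n := n) W := sm_sub hU (smoothFn_const _)
  have hlW : ∀ x, lapX g W x = lapX g U x := fun x => by
    rw [hW, lapX_sub' hU (smoothFn_const _), lapX_const', sub_zero]
  have htr : ∀ x, trX g G x = n - lapX g W x := fun x => by
    rw [hlW]; exact tr_eq hG hU hg x
  have htr0 : ∀ x, 0 ≤ trX g G x := fun x => tr_nonneg hG hg x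
  have hlow : ∀ x, 0 ≤ lapX g v x + m * (|C| + A) * trX g G x := fun x =>
    lap_lower hm hφ hρ hρ0 hG hC hA hδ hg x
  set C' : ℝ := m * (|C| + A) with hC'
  have hC'0 : 0 ≤ C' := mul_nonneg (Nat.cast_nonneg m) (add_nonneg (abs_nonneg C) hA0)
  have cv : Continuous v := sm_continuous hvs
  have cW : Continuous W := sm_continuous hWs
  have clv : Continuous (lapX g v) := cont_lap hgH hvs
  have clW : Continuous (lapX g W) := cont_lap hgH hWs
  have ctr : Continuous (trX g G) :=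
    sm_continuous (smoothFn_trX hgH hG.toIsHermitian.isForm hG.smooth)
  -- first identity
  have e1 : J g (fun x => (Λ - v x) * trX g G x) =
      n * J g (fun x => Λ - v x) - J g (fun x => (Λ - v x) * lapX g W x) := by
    have c1 : Continuous fun x => (n : ℝ) * (Λ - v x) :=
      continuous_const.mul (continuous_const.sub cv)
    have c2 : Continuous fun x => (Λ - v x) * lapX g W x := (continuous_const.sub cv).mul clW
    rw [← J_const_mul, ← J_sub hgH c1 c2]
    refine J_congr fun x => ?_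
    rw [htr x]; ring
  have hΛv : SmoothFn (n := n) (fun x => Λ - v x) := sm_sub (smoothFn_const _) hvs
  have e2 : J g (fun x => (Λ - v x) * lapX g W x) = - J g (fun x => W x * lapX g v x) := by
    rw [J_green hg hWs hΛv, neg_eq_neg_one_mul, ← J_const_mul]
    refine J_congr fun x => ?_
    rw [lapX_sub' (smoothFn_const _) hvs, lapX_const']
    ring
  have e3 : J g (fun x => W x * lapX g v x) ≤ C0 * (C' * (n * J g (fun _ => 1))) := by
    have h2 : J g (fun x => W x * lapX g v x) ≤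
        J g (fun x => C0 * (lapX g v x + C' * trX g G x)) := by
      refine J_mono hgH (cW.mul clv) (continuous_const.mul (clv.add (continuous_const.mul ctr)))
        fun x => ?_
      have a1 : 0 ≤ W x := sub_nonneg.2 (h0 x)
      have a2 : W x ≤ C0 := h1 x
      have a3 := hlow x
      have a4 : 0 ≤ C' * trX g G x := mul_nonneg hC'0 (htr0 x)
      nlinarith [mul_nonneg a1 a4, mul_le_mul_of_nonneg_right a2 a3]
    refine h2.trans (le_of_eq ?_)
    have c3 : Continuous fun x => C' * trX g G x := continuous_const.mul ctr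
    have c4 : Continuous fun _ : X => (n : ℝ) * 1 := continuous_const
    rw [J_const_mul, J_add hgH clv c3, J_const_mul, J_lap hg hvs, zero_add]
    have h3 : J g (trX g G) = n * J g (fun _ => 1) := by
      have h4 : J g (trX g G) = J g (fun x => n * 1 - lapX g W x) :=
        J_congr fun x => by rw [htr x, mul_one]
      rw [h4, J_sub hgH c4 clW, J_const_mul, J_lap hg hWs, sub_zero]
    rw [h3]
  rw [e1, e2]
  linarith

end

/-- **Block E** -/
theorem massPart : MassPart := by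
  intro n X _ _ _ _ _ _ G hG φ hφ m hm ρ hρ hρ0 hρne C hcurv κ hκ
  obtain ⟨x₁, hx₁⟩ := hρne
  haveI : Nonempty X := ⟨x₁⟩
  have hGH := hG.toIsHermitian
  have hm' : (0 : ℝ) < m := Nat.cast_pos.2 hm
  have hθ : IsClosedForm (fun (e : Chart n X) z => cHess (φ e) z) := INT.isClosedForm_canonical hφ
  obtain ⟨A, hA0, hA, -⟩ := H738.exists_two_sided hGH hθ.smooth (fun e x hx =>
    C2.cHess_isHermitian ((hφ.smooth e x hx).of_le (by norm_cast))) hθ.form
  have cρ : Continuous ρ := sm_continuous hρ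
  obtain ⟨xm, -, hxm⟩ := isCompact_univ.exists_isMaxOn univ_nonempty cρ.continuousOn
  set F : X → ℝ := ricPot G φ with hF
  have cF : Continuous F := sm_continuous (smoothFn_ricPot hGH hφ)
  obtain ⟨xF, -, hxF⟩ := isCompact_univ.exists_isMaxOn univ_nonempty cF.continuousOn
  set R0 : ℝ := ρ xm with hR0
  have hR0' : 0 ≤ R0 := hρ0 xm
  have hρR : ∀ x, ρ x ≤ R0 := fun x => hxm (mem_univ x)
  set Rm : ℝ := F xF with hRm
  have hFR : ∀ x, F x ≤ Rm := fun x => hxF (mem_univ x)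
  set Λ : ℝ := max 0 (Real.log (R0 + 1)) + 1 with hΛ
  have hΛ0 : 0 ≤ Λ := by have := le_max_left 0 (Real.log (R0 + 1)); linarith
  set V : ℝ := J G (fun _ => 1) with hV
  have hV0 : 0 < V := J_pos hGH
  set f0 : X → ℝ := fun x => Real.exp (F x) * (ρ x) ^ ((m : ℝ)⁻¹) with hf0
  have hmi : (0 : ℝ) < (m : ℝ)⁻¹ := inv_pos.2 hm'
  have cf0 : Continuous f0 := (Real.continuous_exp.comp cF).mul
    (cρ.rpow_const fun x => Or.inr hmi.le)
  set I0 : ℝ := J G f0 with hI0
  have hI0' : 0 < I0 := J_pos_of hGH cf0 (fun x => mul_nonneg (Real.exp_pos _).le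
    (Real.rpow_nonneg (hρ0 x) _)) (x := x₁) (mul_pos (Real.exp_pos _) (Real.rpow_pos_of_pos hx₁ _))
  set E0 : ℝ := V / I0 with hE0
  have hE0' : 0 < E0 := div_pos hV0 hI0'
  obtain ⟨C0', hC0'⟩ := H937.c0 (n := n) (X := X) G hG (Rm + (m : ℝ)⁻¹ * Λ + Real.log E0)
  set C0 : ℝ := max C0' 0 with hC0
  set K1 : ℝ := E0 * Real.exp Rm * (Λ * Real.exp ((m : ℝ)⁻¹ * Λ) + m) with hK1
  have hK1' : 0 ≤ K1 := by positivity
  set K : ℝ := n * (K1 * V) + C0 * (m * (|C| + A) * (n * V)) with hK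
  have hK' : 0 ≤ K := by
    have h1 : 0 ≤ C0 := le_max_right _ _
    have h2 : 0 ≤ |C| + A := add_nonneg (abs_nonneg _) hA0
    positivity
  obtain ⟨δ₀, hδ₀, hsm⟩ := exists_small K κ hK' hκ
  refine ⟨δ₀, hδ₀, fun δ hδ hδle U c hU hg hlog => ?_⟩
  obtain ⟨hδ1, hεK⟩ := hsm δ hδ hδle
  set g := addH G U with hgdef
  have hgH := hg.toIsHermitian
  have hr : ∀ x, 0 < ρ x + δ := fun x => by have := hρ0 x; linarith
  have hlogr : ∀ x, Real.log (ρ x + δ) ≤ Λ - 1 := fun x => by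
    have h1 : Real.log (ρ x + δ) ≤ Real.log (R0 + 1) :=
      Real.log_le_log (hr x) (by have := hρR x; linarith)
    have h2 := le_max_right 0 (Real.log (R0 + 1))
    rw [hΛ]; linarith
  -- the volume ratio
  have hdet : ∀ x, detR g G x =
      Real.exp c * (Real.exp (F x) * Real.exp ((m : ℝ)⁻¹ * Real.log (ρ x + δ))) := by
    intro x
    have hx := at_chartAt (n := n) x
    have h1 := hlog _ x hx
    have h2 := hgH.det_re_pos hx
    have h3 := hGH.det_re_pos hx
    have h4 : F x = _ := ricPot_eq hGH hφ hx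
    have h5 : phiD φ m ρ δ (chartAt (Cm n) x) (chartAt (Cm n) x x) =
        φ (chartAt (Cm n) x) (chartAt (Cm n) x x) + (m : ℝ)⁻¹ * Real.log (ρ x + δ) := by
      unfold phiD; rw [hx.left_inv]
    rw [detR_eq hgH hGH hx, ← Real.exp_log (div_pos h2 h3), Real.log_div h2.ne' h3.ne', h1, h5,
      ← Real.exp_add, ← Real.exp_add, h4]
    congr 1
    ring
  have hvol : J g (fun _ => 1) = V := by
    rw [hV, J_one, J_one]
    exact INT.intX_det_add_cHess (INT.IsKahler.isClosedForm hG) hU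
  have cd : Continuous (detR g G) := sm_continuous (smoothFn_detR hgH hGH)
  have hEc : Real.exp c ≤ E0 := by
    have h1 : Real.exp c * I0 ≤ V := by
      rw [← hvol, ← J_detR hgH hGH, hI0, ← J_const_mul]
      refine J_mono hGH (continuous_const.mul cf0) (continuous_const.mul cd) fun x => ?_
      rw [hdet x, one_mul]
      show Real.exp c * (Real.exp (F x) * (ρ x) ^ ((m : ℝ)⁻¹)) ≤ _
      have h2 : (ρ x) ^ ((m : ℝ)⁻¹) ≤ Real.exp ((m : ℝ)⁻¹ * Real.log (ρ x + δ)) := by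
        have h3 : (ρ x + δ) ^ ((m : ℝ)⁻¹) = Real.exp ((m : ℝ)⁻¹ * Real.log (ρ x + δ)) := by
          rw [Real.rpow_def_of_pos (hr x), mul_comm]
        rw [← h3]
        exact Real.rpow_le_rpow (hρ0 x) (by linarith) hmi.le
      gcongr
    rw [hE0, le_div_iff₀ hI0']
    exact h1
  -- the potential
  have hosc : ∀ x y, U x - U y ≤ C0 := by
    intro x y
    refine (hC0' U hU (fun e x hx => hg.posDef e x hx) (fun e x hx => ?_) x y).trans
      (le_max_left _ _)
    have h1 := hlog e x hx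
    have h4 : F x = _ := ricPot_eq hGH hφ hx
    have h5 : phiD φ m ρ δ e (e x) = φ e (e x) + (m : ℝ)⁻¹ * Real.log (ρ x + δ) := by
      unfold phiD; rw [hx.left_inv]
    have h6 : c ≤ Real.log E0 := by
      rw [← Real.log_exp c]; exact Real.log_le_log (Real.exp_pos c) hEc
    have h7 := hFR x
    have h8 : (m : ℝ)⁻¹ * Real.log (ρ x + δ) ≤ (m : ℝ)⁻¹ * Λ :=
      mul_le_mul_of_nonneg_left (by have := hlogr x; linarith) hmi.le
    rw [h1, h5]
    linarith
  obtain ⟨x₀, -, hx₀⟩ := isCompact_univ.exists_isMinOn univ_nonempty (sm_continuous hU).continuousOn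
  have hmain := main_ineq hm hφ hρ hρ0 hG hA0 hcurv hA hδ hU hg Λ x₀ (fun x => hx₀ (mem_univ x))
    (fun x => hosc x x₀) (le_max_right _ _)
  rw [← hgdef, hvol] at hmain
  -- the integral of `Λ - log(ρ+δ)`
  set v : X → ℝ := fun x => Real.log (ρ x + δ) with hv
  have hvs : SmoothFn (n := n) v := sm_log (sm_add hρ (smoothFn_const δ)) hr
  have cv : Continuous v := sm_continuous hvs
  have hJv : J g (fun x => Λ - v x) ≤ K1 * V := by
    rw [← J_detR hgH hGH, hV, ← J_const_mul]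
    refine J_mono hGH ((continuous_const.sub cv).mul cd) (continuous_const.mul continuous_const)
      fun x => ?_
    rw [hdet x, mul_one]
    have h1 : (Λ - v x) * Real.exp ((m : ℝ)⁻¹ * v x) ≤ Λ * Real.exp ((m : ℝ)⁻¹ * Λ) + m :=
      exp_le hm hΛ0 (by have := hlogr x; simp only [hv]; linarith)
    have h2 : (Λ - v x) * (Real.exp c * (Real.exp (F x) * Real.exp ((m : ℝ)⁻¹ * v x))) =
        Real.exp c * Real.exp (F x) * ((Λ - v x) * Real.exp ((m : ℝ)⁻¹ * v x)) := by ring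
    show (Λ - v x) * (Real.exp c * (Real.exp (F x) * Real.exp ((m : ℝ)⁻¹ * v x))) ≤ K1
    rw [h2, hK1]
    have h3 : 0 ≤ (Λ - v x) * Real.exp ((m : ℝ)⁻¹ * v x) :=
      mul_nonneg (by have := hlogr x; simp only [hv]; linarith) (Real.exp_pos _).le
    have h4 : Real.exp c * Real.exp (F x) ≤ E0 * Real.exp Rm :=
      mul_le_mul hEc (Real.exp_le_exp.2 (hFR x)) (Real.exp_pos _).le hE0'.le
    exact mul_le_mul h4 h1 h3 (by positivity)
  have hJK : J g (fun x => (Λ - v x) * trX g G x) ≤ K := by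
    refine hmain.trans ?_
    rw [hK]
    have : (n : ℝ) * J g (fun x => Λ - v x) ≤ n * (K1 * V) :=
      mul_le_mul_of_nonneg_left hJv (Nat.cast_nonneg n)
    linarith
  set ε : ℝ := Real.sqrt δ + 2 / Real.log (1 / δ) with hε
  have hε0 : 0 ≤ ε := by
    have hL : 0 < Real.log (1 / δ) := Real.log_pos (by rw [lt_div_iff₀ hδ]; linarith)
    positivity
  have ctr : Continuous (trX g G) :=
    sm_continuous (smoothFn_trX hgH hG.toIsHermitian.isForm hG.smooth)
  have hfin : J g (fun x => δ / (ρ x + δ) * trX g G x) ≤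
      ε * J g (fun x => (Λ - v x) * trX g G x) := by
    rw [← J_const_mul]
    refine J_mono hgH ((continuous_const.div (cρ.add continuous_const) fun x => (hr x).ne').mul ctr)
      (continuous_const.mul ((continuous_const.sub cv).mul ctr)) fun x => ?_
    rw [← mul_assoc]
    refine mul_le_mul_of_nonneg_right ?_ (tr_nonneg hG hg x)
    exact eta_le hδ hδ1 (by have := hρ0 x; linarith) hΛ0 (by have := hlogr x; linarith)
  exact hfin.trans ((mul_le_mul_of_nonneg_left hJK hε0).trans hεK)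

end Vale.Agent.P281.H283.GME
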